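import Vale.Agent.P251.X.RetMod
import Vale.Agent.P251.M.BaseCh

/-!
# P241, existence of `K(n)`: the `A ⊗ R`-module `A ⊗ C`

`act : R ⊗ C ⟶ C` a map which satisfies the module laws after tensoring with `A`. Then `A ⊗ C` is a
module over `A ⊗ R`.
-/

open CategoryTheory MonoidalCategory MonObj

set_option linter.unusedSectionVars false

universe v u

namespace Vale.Agent.P241.H24

open Vale.Agent.P251.M Vale.Agent.P251.S Vale.Agent.P251.X

variable {T : Type u} [Category.{v} T] [MonoidalCategory T] [SymmetricCategory T]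

variable {A R C : T} [MonObj A] [MonObj R]

/-- maps which agree after the unit of `A` agree after tensoring with `A` -/
theorem whiskerLeft_ext {X Y : T} {f g : X ⟶ Y} (h : f ≫ FM.unit A Y = g ≫ FM.unit A Y) :
    A ◁ f = A ◁ g := by
  have h1 : A ◁ FM.unit A Y ≫ fact A Y = 𝟙 _ := FM.bind_unit (R := A) Y
  rw [← Category.comp_id (A ◁ f), ← Category.comp_id (A ◁ g), ← h1,
    ← MonoidalCategory.whiskerLeft_comp_assoc, ← MonoidalCategory.whiskerLeft_comp_assoc, h]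

theorem comp_unit_eq {X Y : T} {f g : X ⟶ Y} (h : A ◁ f = A ◁ g) :
    f ≫ FM.unit A Y = g ≫ FM.unit A Y := by
  rw [FM.unit_naturality, FM.unit_naturality, h]

/-- The action of `A ⊗ R` on `A ⊗ C`. -/
def actT (A : T) [MonObj A] (act : R ⊗ C ⟶ C) : (A ⊗ R) ⊗ (A ⊗ C) ⟶ A ⊗ C :=
  tensorμ A R A C ≫ (μ[A] ⊗ₘ act)

/-- The `A ⊗ R`-module `A ⊗ C`. -/
def modE (act : R ⊗ C ⟶ C) (h1 : A ◁ (η[R] ▷ C ≫ act) = A ◁ (λ_ C).hom)
    (h2 : A ◁ (μ[R] ▷ C ≫ act) = A ◁ ((α_ R R C).hom ≫ R ◁ act ≫ act)) :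
    ModStr (A ⊗ R) (A ⊗ C) where
  act := actT A act
  one_act := by
    change ((λ_ (𝟙_ T)).inv ≫ (η[A] ⊗ₘ η[R])) ▷ (A ⊗ C) ≫ tensorμ A R A C ≫ (μ[A] ⊗ₘ act) = _
    rw [comp_whiskerRight, Category.assoc, tensorμ_natural_left_assoc, tensorHom_comp_tensorHom,
      MonObj.one_mul, tensorHom_def, h1, ← tensorHom_def, ← tensor_left_unitality]
  mul_act := by
    change (tensorμ A R A R ≫ (μ[A] ⊗ₘ μ[R])) ▷ (A ⊗ C) ≫ tensorμ A R A C ≫ (μ[A] ⊗ₘ act) =
      (α_ (A ⊗ R) (A ⊗ R) (A ⊗ C)).hom ≫ (A ⊗ R) ◁ (tensorμ A R A C ≫ (μ[A] ⊗ₘ act)) ≫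
        tensorμ A R A C ≫ (μ[A] ⊗ₘ act)
    rw [comp_whiskerRight, Category.assoc, tensorμ_natural_left_assoc, tensorHom_comp_tensorHom,
      MonObj.mul_assoc, tensorHom_def, h2, ← tensorHom_def, ← tensorHom_comp_tensorHom,
      reassoc_of% (tensor_associativity A R A R A C), MonoidalCategory.whiskerLeft_comp,
      Category.assoc, tensorμ_natural_right_assoc, tensorHom_comp_tensorHom]

@[simp]
theorem modE_act (act : R ⊗ C ⟶ C) (h1) (h2) : (modE (A := A) act h1 h2).act = actT A act := rfl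

end Vale.Agent.P241.H24
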