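import Vale.Agent.P241.H24.TwDef
import Vale.Agent.P251.M.BaseCh

/-!
# P241, existence of `K(n)`: the monoid `A ⊗ C` of a twisted product
-/

open CategoryTheory MonoidalCategory MonObj

set_option linter.unusedSectionVars false

universe v u

namespace Vale.Agent.P241.H24

open Vale.Agent.P251.M Vale.Agent.P251.S Vale.Agent.P251.X

variable {T : Type u} [Category.{v} T] [MonoidalCategory T] [SymmetricCategory T]

/-- `(e c) a ↦ (e a) c` -/
def sw (E C A : T) : (E ⊗ C) ⊗ A ⟶ (E ⊗ A) ⊗ C :=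
  (α_ E C A).hom ≫ E ◁ (β_ C A).hom ≫ (α_ E A C).inv

@[reassoc]
theorem sw_left {E E' : T} (f : E ⟶ E') (C A : T) :
    f ▷ C ▷ A ≫ sw E' C A = sw E C A ≫ f ▷ A ▷ C := by
  unfold sw
  simp only [Category.assoc, associator_naturality_left_assoc]
  rw [← whisker_exchange_assoc, associator_inv_naturality_left]

@[reassoc]
theorem sw_mid {C C' : T} (E : T) (f : C ⟶ C') (A : T) :
    (E ◁ f) ▷ A ≫ sw E C' A = sw E C A ≫ (E ⊗ A) ◁ f := by
  unfold sw
  simp only [Category.assoc, associator_naturality_middle_assoc]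
  rw [← MonoidalCategory.whiskerLeft_comp_assoc, BraidedCategory.braiding_naturality_left,
    MonoidalCategory.whiskerLeft_comp_assoc, associator_inv_naturality_right]

@[reassoc]
theorem sw_right {A A' : T} (E C : T) (f : A ⟶ A') :
    (E ⊗ C) ◁ f ≫ sw E C A' = sw E C A ≫ (E ◁ f) ▷ C := by
  unfold sw
  simp only [Category.assoc, associator_naturality_right_assoc]
  rw [← MonoidalCategory.whiskerLeft_comp_assoc, BraidedCategory.braiding_naturality_right,
    MonoidalCategory.whiskerLeft_comp_assoc, associator_inv_naturality_middle]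

theorem rmul_eq (A C : T) [MonObj A] : rmul A C = sw A C A ≫ μ[A] ▷ C := by
  unfold rmul sw
  simp only [Category.assoc]

/-- `x (e c) a = x ((e a) c)` -/
theorem sw_assoc (X E C A : T) : (α_ X E C).inv ▷ A ≫ sw (X ⊗ E) C A ≫ (α_ X E A).hom ▷ C =
    (α_ X (E ⊗ C) A).hom ≫ X ◁ sw E C A ≫ (α_ X (E ⊗ A) C).inv := by
  unfold sw
  monoidal

/-- `(x e) a = x (e a)` -/
@[reassoc]
theorem fact_rmul (A C : T) [MonObj A] :
    fact A C ▷ A ≫ rmul A C = (α_ A (A ⊗ C) A).hom ≫ A ◁ rmul A C ≫ fact A C := by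
  unfold fact
  rw [rmul_eq, comp_whiskerRight, Category.assoc, sw_left_assoc, ← comp_whiskerRight,
    MonObj.mul_assoc, comp_whiskerRight, reassoc_of% (sw_assoc A A C A), comp_whiskerRight,
    ← associator_inv_naturality_middle_assoc, MonoidalCategory.whiskerLeft_comp, Category.assoc]

/-- `(e a) a' = e (a a')` -/
@[reassoc]
theorem rmul_rmul (A C : T) [MonObj A] :
    rmul A C ▷ A ≫ rmul A C = (α_ (A ⊗ C) A A).hom ≫ (A ⊗ C) ◁ μ[A] ≫ rmul A C := by
  have h1 : sw A C A ▷ A ≫ sw (A ⊗ A) C A ≫ (α_ A A A).hom ▷ C =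
      (α_ (A ⊗ C) A A).hom ≫ sw A C (A ⊗ A) := by
    unfold sw
    rw [BraidedCategory.braiding_tensor_right_hom]
    monoidal
  rw [rmul_eq, comp_whiskerRight, Category.assoc, sw_left_assoc, ← comp_whiskerRight,
    MonObj.mul_assoc, comp_whiskerRight, comp_whiskerRight, sw_right_assoc, reassoc_of% h1]

/-- `e 1 = e` -/
theorem rmul_one (A C : T) [MonObj A] : (A ⊗ C) ◁ η[A] ≫ rmul A C = (ρ_ (A ⊗ C)).hom := by
  rw [rmul_eq, sw_right_assoc, ← comp_whiskerRight, MonObj.mul_one]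
  unfold sw
  rw [braiding_tensorUnit_right]
  monoidal

variable {A R C : T} [MonObj A] [MonObj R]

namespace TwProd

variable (t : TwProd A R C)

/-- right multiplication by `C` -/
def rC : (A ⊗ C) ⊗ C ⟶ A ⊗ C := (α_ A C C).hom ≫ A ◁ t.mt ≫ fact A C

/-- the product -/
def mulE : (A ⊗ C) ⊗ (A ⊗ C) ⟶ A ⊗ C := (α_ (A ⊗ C) A C).inv ≫ rmul A C ▷ C ≫ t.rC

/-- the unit -/
def oneE : 𝟙_ T ⟶ A ⊗ C := η[A] ≫ (ρ_ A).inv ≫ A ◁ (η[R] ≫ t.q)

/-- `(x e) c = x (e c)` -/
@[reassoc]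
theorem fact_rC : fact A C ▷ C ≫ t.rC = (α_ A (A ⊗ C) C).hom ≫ A ◁ t.rC ≫ fact A C := by
  unfold rC
  have h1 : A ◁ fact A C ≫ fact A C = (α_ A A (A ⊗ C)).inv ≫ μ[A] ▷ (A ⊗ C) ≫ fact A C := by
    have := (ModStr.free A C).mul_act
    rw [free_act] at this
    rw [this, Iso.inv_hom_id_assoc]
  simp only [MonoidalCategory.whiskerLeft_comp, Category.assoc]
  rw [h1]
  unfold fact
  simp only [comp_whiskerRight, Category.assoc, associator_naturality_left_assoc]
  rw [← whisker_exchange_assoc, associator_inv_naturality_right_assoc]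
  simp only [← Category.assoc]
  congr 4
  simp only [Category.assoc]
  monoidal

/-- `(e a) c` -/
@[reassoc]
theorem rmul_rC : rmul A C ▷ C ≫ t.rC = sw A C A ▷ C ≫ (α_ (A ⊗ A) C C).hom ≫
    (A ⊗ A) ◁ t.mt ≫ (α_ A A (A ⊗ C)).hom ≫ A ◁ fact A C ≫ fact A C := by
  have h1 := (ModStr.free A C).mul_act
  rw [free_act] at h1
  unfold rC
  rw [rmul_eq, comp_whiskerRight, Category.assoc, associator_naturality_left_assoc,
    ← whisker_exchange_assoc, h1]

/-- `(e c) a = (e a) c` -/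
@[reassoc]
theorem rC_rmul : t.rC ▷ A ≫ rmul A C = sw (A ⊗ C) C A ≫ rmul A C ▷ C ≫ t.rC := by
  have h1 : t.rC ▷ A = (α_ A C C).hom ▷ A ≫ (A ◁ t.mt) ▷ A ≫ fact A C ▷ A := by
    unfold rC
    rw [comp_whiskerRight, comp_whiskerRight]
  have h2 : sw (A ⊗ C) C A ≫ sw A C A ▷ C ≫ (α_ (A ⊗ A) C C).hom ≫
      (α_ A A (C ⊗ C)).hom = (α_ A C C).hom ▷ A ≫ (α_ A (C ⊗ C) A).hom ≫
        A ◁ (β_ (C ⊗ C) A).hom := by
    unfold sw
    rw [BraidedCategory.braiding_tensor_left_hom]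
    monoidal
  rw [h1, Category.assoc, Category.assoc, fact_rmul, associator_naturality_middle_assoc,
    ← MonoidalCategory.whiskerLeft_comp_assoc, ← t.central, rmul_rC,
    associator_naturality_right_assoc, reassoc_of% h2]
  simp only [MonoidalCategory.whiskerLeft_comp, Category.assoc]

/-- `(e c) c' = e mt(c, c')` -/
@[reassoc]
theorem rC_rC : t.rC ▷ C ≫ t.rC = (α_ (A ⊗ C) C C).hom ≫ (A ⊗ C) ◁ t.mt ≫ t.mulE := by
  have h1 : t.rC ▷ C = (α_ A C C).hom ▷ C ≫ (A ◁ t.mt) ▷ C ≫ fact A C ▷ C := by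
    unfold rC
    rw [comp_whiskerRight, comp_whiskerRight]
  have h2 : t.mt ▷ C ≫ t.rC =
      (α_ C C C).hom ≫ C ◁ t.mt ≫ ich C A C ≫ A ◁ t.mt ≫ fact A C := t.assoc
  have h3 : (α_ (A ⊗ C) A C).inv ≫ sw A C A ▷ C ≫ (α_ (A ⊗ A) C C).hom ≫
      (α_ A A (C ⊗ C)).hom = (α_ A C (A ⊗ C)).hom ≫ A ◁ ich C A C := by
    unfold sw ich
    monoidal
  unfold mulE
  rw [h1, Category.assoc, Category.assoc, fact_rC, associator_naturality_middle_assoc,
    ← MonoidalCategory.whiskerLeft_comp_assoc, h2, rmul_rC, associator_naturality_right_assoc,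
    reassoc_of% h3]
  simp only [MonoidalCategory.whiskerLeft_comp, Category.assoc, associator_naturality_right_assoc]
  simp only [← Category.assoc]
  congr 5
  simp only [Category.assoc]
  monoidal

/-- `e (a e') = (e a) e'` -/
@[reassoc]
theorem fact_mulE : (A ⊗ C) ◁ fact A C ≫ t.mulE =
    (α_ (A ⊗ C) A (A ⊗ C)).inv ≫ rmul A C ▷ (A ⊗ C) ≫ t.mulE := by
  have h1 : (A ⊗ C) ◁ μ[A] ≫ rmul A C = (α_ (A ⊗ C) A A).inv ≫ rmul A C ▷ A ≫ rmul A C := by
    rw [rmul_rmul, Iso.inv_hom_id_assoc]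
  unfold mulE fact
  rw [MonoidalCategory.whiskerLeft_comp, Category.assoc, associator_inv_naturality_middle_assoc,
    ← comp_whiskerRight_assoc, h1, associator_inv_naturality_left_assoc]
  simp only [comp_whiskerRight, Category.assoc]
  simp only [← Category.assoc]
  congr 3
  monoidal

/-- `(e e') a = e (e' a)` -/
@[reassoc]
theorem mulE_rmul : t.mulE ▷ A ≫ rmul A C =
    (α_ (A ⊗ C) (A ⊗ C) A).hom ≫ (A ⊗ C) ◁ rmul A C ≫ t.mulE := by
  have h1 : (A ⊗ C) ◁ rmul A C = (A ⊗ C) ◁ sw A C A ≫ (A ⊗ C) ◁ μ[A] ▷ C := by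
    rw [rmul_eq, MonoidalCategory.whiskerLeft_comp]
  unfold mulE
  simp only [comp_whiskerRight, Category.assoc]
  rw [rC_rmul, sw_left_assoc, ← comp_whiskerRight_assoc (rmul A C ▷ A), rmul_rmul, h1]
  simp only [comp_whiskerRight, Category.assoc, associator_inv_naturality_middle_assoc]
  rw [reassoc_of% (sw_assoc (A ⊗ C) A C A)]

/-- `(e e') c = e (e' c)` -/
@[reassoc]
theorem mulE_rC : t.mulE ▷ C ≫ t.rC =
    (α_ (A ⊗ C) (A ⊗ C) C).hom ≫ (A ⊗ C) ◁ t.rC ≫ t.mulE := by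
  have h1 : (A ⊗ C) ◁ t.rC = (A ⊗ C) ◁ (α_ A C C).hom ≫ (A ⊗ C) ◁ A ◁ t.mt ≫
      (A ⊗ C) ◁ fact A C := by
    unfold rC
    simp only [MonoidalCategory.whiskerLeft_comp]
  have h2 : t.mulE ▷ C = (α_ (A ⊗ C) A C).inv ▷ C ≫ (rmul A C ▷ C) ▷ C ≫ t.rC ▷ C := by
    unfold mulE
    simp only [comp_whiskerRight]
  rw [h1, h2, Category.assoc, Category.assoc, rC_rC, associator_naturality_left_assoc,
    ← whisker_exchange_assoc, Category.assoc, Category.assoc, fact_mulE,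
    associator_inv_naturality_right_assoc]
  simp only [← Category.assoc]
  congr 3
  simp only [Category.assoc]
  monoidal

/-- the product is associative -/
theorem mulE_assoc : t.mulE ▷ (A ⊗ C) ≫ t.mulE =
    (α_ (A ⊗ C) (A ⊗ C) (A ⊗ C)).hom ≫ (A ⊗ C) ◁ t.mulE ≫ t.mulE := by
  have h1 : (A ⊗ C) ◁ t.mulE = (A ⊗ C) ◁ (α_ (A ⊗ C) A C).inv ≫ (A ⊗ C) ◁ rmul A C ▷ C ≫
      (A ⊗ C) ◁ t.rC := by
    conv_lhs => rw [mulE]
    simp only [MonoidalCategory.whiskerLeft_comp]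
  have h2 : t.mulE ▷ (A ⊗ C) ≫ t.mulE =
      (α_ ((A ⊗ C) ⊗ (A ⊗ C)) A C).inv ≫ (t.mulE ▷ A ≫ rmul A C) ▷ C ≫ t.rC := by
    conv_lhs => rw [mulE]
    change t.mulE ▷ (A ⊗ C) ≫ (α_ (A ⊗ C) A C).inv ≫ rmul A C ▷ C ≫ t.rC = _
    rw [associator_inv_naturality_left_assoc, comp_whiskerRight, Category.assoc]
  rw [h1, h2, mulE_rmul]
  simp only [comp_whiskerRight, Category.assoc]
  rw [mulE_rC, associator_naturality_middle_assoc]
  simp only [← Category.assoc]
  congr 3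
  simp only [Category.assoc]
  monoidal

/-- the inclusion of `A` -/
def inlE : A ⟶ A ⊗ C := (ρ_ A).inv ≫ A ◁ (η[R] ≫ t.q)

/-- the inclusion of `R` -/
def inrE : R ⟶ A ⊗ C := t.q ≫ FM.unit A C

theorem oneE_eq : t.oneE = η[A] ≫ t.inlE := rfl

/-- `a a' ⊗ 1` -/
@[reassoc]
theorem inlE_rmul : t.inlE ▷ A ≫ rmul A C = μ[A] ≫ t.inlE := by
  unfold inlE
  rw [rmul_eq, comp_whiskerRight, Category.assoc, sw_mid_assoc, whisker_exchange,
    rightUnitor_inv_naturality_assoc]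
  unfold sw
  rw [braiding_tensorUnit_left]
  simp only [← Category.assoc]
  congr 2
  simp only [Category.assoc]
  monoidal

/-- `(a ⊗ 1) c = a ⊗ c` -/
@[reassoc]
theorem inlE_rC : t.inlE ▷ C ≫ t.rC = 𝟙 _ := by
  unfold inlE rC
  rw [comp_whiskerRight, Category.assoc, associator_naturality_middle_assoc,
    ← MonoidalCategory.whiskerLeft_comp_assoc, t.one_mt, MonoidalCategory.whiskerLeft_comp,
    Category.assoc]
  have h1 : A ◁ FM.unit A C ≫ fact A C = 𝟙 _ := FM.bind_unit (R := A) C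
  rw [h1]
  monoidal

/-- `e 1 = e` -/
@[reassoc]
theorem rC_one : (A ⊗ C) ◁ (η[R] ≫ t.q) ≫ t.rC = (ρ_ (A ⊗ C)).hom := by
  unfold rC
  rw [associator_naturality_right_assoc, ← MonoidalCategory.whiskerLeft_comp_assoc, t.mt_one,
    MonoidalCategory.whiskerLeft_comp, Category.assoc]
  have h1 : A ◁ FM.unit A C ≫ fact A C = 𝟙 _ := FM.bind_unit (R := A) C
  rw [h1]
  monoidal

/-- `a e` -/
@[reassoc]
theorem left_mul : t.inlE ▷ (A ⊗ C) ≫ t.mulE = fact A C := by
  unfold mulE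
  rw [associator_inv_naturality_left_assoc, ← comp_whiskerRight_assoc, inlE_rmul,
    comp_whiskerRight, Category.assoc, inlE_rC, Category.comp_id]
  rfl

/-- `e a` -/
@[reassoc]
theorem right_mul : (A ⊗ C) ◁ t.inlE ≫ t.mulE = rmul A C := by
  unfold mulE inlE
  rw [MonoidalCategory.whiskerLeft_comp, Category.assoc, associator_inv_naturality_right_assoc,
    whisker_exchange_assoc, rC_one]
  monoidal

/-- The monoid structure. -/
@[reducible]
def mon : MonObj (A ⊗ C) where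
  one := t.oneE
  mul := t.mulE
  one_mul := by
    rw [oneE_eq, comp_whiskerRight, Category.assoc, left_mul]
    exact (ModStr.free A C).one_act
  mul_one := by
    rw [oneE_eq, MonoidalCategory.whiskerLeft_comp, Category.assoc, right_mul, rmul_one]
  mul_assoc := t.mulE_assoc

/-- `(a c) (a' c') = (a a') mt(c, c')` -/
theorem mulE_eq : t.mulE = tensorμ A C A C ≫ (μ[A] ⊗ₘ t.mt) ≫ fact A C := by
  have h1 := (ModStr.free A C).mul_act
  rw [free_act] at h1
  have h2 : tensorμ A C A C = (α_ (A ⊗ C) A C).inv ≫ sw A C A ▷ C ≫ (α_ (A ⊗ A) C C).hom := by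
    unfold tensorμ sw
    monoidal
  unfold mulE
  rw [rmul_rC, tensorHom_def', Category.assoc, h1, h2]
  simp only [Category.assoc]

/-- `e (1 ⊗ c) = e c` -/
@[reassoc]
theorem unit_mulE : (A ⊗ C) ◁ FM.unit A C ≫ t.mulE = t.rC := by
  unfold FM.unit mulE
  rw [MonoidalCategory.whiskerLeft_comp, Category.assoc, associator_inv_naturality_middle_assoc,
    ← comp_whiskerRight_assoc, rmul_one]
  monoidal

/-- `(a ⊗ 1) (1 ⊗ c) = a ⊗ c` -/
@[reassoc]
theorem inlE_unit_mulE : (t.inlE ⊗ₘ FM.unit A C) ≫ t.mulE = 𝟙 _ := by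
  rw [tensorHom_def, Category.assoc, unit_mulE, inlE_rC]

theorem isMonHom_inlE : letI := t.mon; IsMonHom t.inlE := by
  let _ := t.mon
  refine ⟨rfl, ?_⟩
  change μ[A] ≫ t.inlE = (t.inlE ⊗ₘ t.inlE) ≫ t.mulE
  rw [tensorHom_def', Category.assoc, left_mul]
  unfold inlE fact
  generalize η[R] ≫ t.q = j
  rw [MonoidalCategory.whiskerLeft_comp, Category.assoc, associator_inv_naturality_right_assoc,
    whisker_exchange, rightUnitor_inv_naturality_assoc]
  simp only [← Category.assoc]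
  congr 2
  monoidal

/-- the action of `R` on `A ⊗ C` -/
def actE : R ⊗ (A ⊗ C) ⟶ A ⊗ C := ich R A C ≫ A ◁ t.a

theorem q_eq : t.q = (ρ_ R).inv ≫ R ◁ (η[R] ≫ t.q) ≫ t.a := by
  rw [MonoidalCategory.whiskerLeft_comp, Category.assoc, t.q_a, ← Category.assoc (R ◁ η[R]),
    MonObj.mul_one, Iso.inv_hom_id_assoc]

/-- `r (1 ⊗ c) = 1 ⊗ r c` -/
@[reassoc]
theorem unit_actE : R ◁ FM.unit A C ≫ t.actE = t.a ≫ FM.unit A C := by
  have h1 : R ◁ FM.unit A C ≫ ich R A C = FM.unit A (R ⊗ C) := by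
    unfold FM.unit ich
    rw [MonoidalCategory.whiskerLeft_comp, Category.assoc, associator_inv_naturality_middle_assoc,
      ← comp_whiskerRight_assoc, BraidedCategory.braiding_naturality_right, comp_whiskerRight,
      braiding_tensorUnit_right]
    monoidal
  unfold actE
  rw [reassoc_of% h1, ← FM.unit_naturality]

/-- `mt(r, c) = 1 ⊗ r c` -/
@[reassoc]
theorem q_mt : t.q ▷ C ≫ t.mt = t.a ≫ FM.unit A C := by
  have h1 : t.a ▷ C ≫ t.mt = (α_ R C C).hom ≫ R ◁ t.mt ≫ t.actE := by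
    rw [actE, ← t.lin₁, Iso.hom_inv_id_assoc]
  have h2 : t.q ▷ C = (ρ_ R).inv ▷ C ≫ (R ◁ (η[R] ≫ t.q)) ▷ C ≫ t.a ▷ C := by
    conv_lhs => rw [q_eq]
    simp only [comp_whiskerRight]
  rw [h2, Category.assoc, Category.assoc, h1, associator_naturality_middle_assoc,
    ← MonoidalCategory.whiskerLeft_comp_assoc, t.one_mt, MonoidalCategory.whiskerLeft_comp,
    Category.assoc, unit_actE]
  monoidal

/-- `mt(c, r) = 1 ⊗ r c` -/
@[reassoc]
theorem mt_q : C ◁ t.q ≫ t.mt = (β_ C R).hom ≫ t.a ≫ FM.unit A C := by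
  have h0 : ich C R C ≫ ich R C C = 𝟙 _ := by
    unfold ich
    simp only [Category.assoc, Iso.hom_inv_id_assoc]
    rw [← comp_whiskerRight_assoc, SymmetricCategory.symmetry, id_whiskerRight,
      Category.id_comp, Iso.inv_hom_id]
  have h1 : C ◁ t.a ≫ t.mt = ich C R C ≫ R ◁ t.mt ≫ t.actE := by
    rw [actE, ← t.lin₂, reassoc_of% h0]
  have h2 : C ◁ t.q = C ◁ (ρ_ R).inv ≫ C ◁ R ◁ (η[R] ≫ t.q) ≫ C ◁ t.a := by
    conv_lhs => rw [q_eq]
    simp only [MonoidalCategory.whiskerLeft_comp]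
  have h3 : C ◁ R ◁ (η[R] ≫ t.q) ≫ ich C R C = ich C R (𝟙_ T) ≫ R ◁ C ◁ (η[R] ≫ t.q) := by
    unfold ich
    rw [associator_inv_naturality_right_assoc, whisker_exchange_assoc,
      associator_naturality_right, Category.assoc, Category.assoc]
  have h4 : C ◁ (ρ_ R).inv ≫ ich C R (𝟙_ T) ≫ R ◁ (ρ_ C).hom = (β_ C R).hom := by
    unfold ich
    monoidal
  rw [h2, Category.assoc, Category.assoc, h1, reassoc_of% h3,
    ← MonoidalCategory.whiskerLeft_comp_assoc, t.mt_one, MonoidalCategory.whiskerLeft_comp,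
    Category.assoc, unit_actE, reassoc_of% h4]

/-- `(1 ⊗ r) e = r e` -/
@[reassoc]
theorem inrE_mulE : t.inrE ▷ (A ⊗ C) ≫ t.mulE = t.actE := by
  have h1 : t.inrE ▷ A ≫ rmul A C = (β_ R A).hom ≫ A ◁ t.q := by
    unfold inrE FM.unit
    rw [comp_whiskerRight, Category.assoc, comp_whiskerRight, Category.assoc, rmul_eq,
      sw_left_assoc, ← comp_whiskerRight, MonObj.one_mul]
    have h2 : (λ_ C).inv ▷ A ≫ sw (𝟙_ T) C A ≫ (λ_ A).hom ▷ C = (β_ C A).hom := by
      unfold sw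
      monoidal
    rw [h2, BraidedCategory.braiding_naturality_left]
  have h3 : (A ◁ t.q) ▷ C ≫ t.rC = (α_ A R C).hom ≫ A ◁ t.a := by
    have h4 : A ◁ FM.unit A C ≫ fact A C = 𝟙 _ := FM.bind_unit (R := A) C
    unfold rC
    rw [associator_naturality_middle_assoc, ← MonoidalCategory.whiskerLeft_comp_assoc, t.q_mt,
      MonoidalCategory.whiskerLeft_comp, Category.assoc, h4, Category.comp_id]
  unfold mulE actE ich
  rw [associator_inv_naturality_left_assoc, ← comp_whiskerRight_assoc, h1, comp_whiskerRight,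
    Category.assoc, h3, Category.assoc, Category.assoc]

/-- `e (1 ⊗ r) = r e` -/
@[reassoc]
theorem mulE_inrE : (A ⊗ C) ◁ t.inrE ≫ t.mulE = (β_ (A ⊗ C) R).hom ≫ t.actE := by
  have h3 : (A ⊗ C) ◁ t.q ≫ t.rC = (α_ A C R).hom ≫ A ◁ (β_ C R).hom ≫ A ◁ t.a := by
    have h4 : A ◁ FM.unit A C ≫ fact A C = 𝟙 _ := FM.bind_unit (R := A) C
    unfold rC
    rw [associator_naturality_right_assoc, ← MonoidalCategory.whiskerLeft_comp_assoc, t.mt_q]
    simp only [MonoidalCategory.whiskerLeft_comp, Category.assoc]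
    rw [h4, Category.comp_id]
  have h5 : (β_ (A ⊗ C) R).hom ≫ ich R A C = (α_ A C R).hom ≫ A ◁ (β_ C R).hom := by
    unfold ich
    rw [BraidedCategory.braiding_tensor_left_hom]
    simp only [Category.assoc, Iso.hom_inv_id_assoc]
    rw [← comp_whiskerRight_assoc, SymmetricCategory.symmetry, id_whiskerRight,
      Category.id_comp, Iso.inv_hom_id, Category.comp_id]
  unfold inrE actE
  rw [MonoidalCategory.whiskerLeft_comp, Category.assoc, unit_mulE, h3, reassoc_of% h5]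

end TwProd

end Vale.Agent.P241.H24
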