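import Vale.Agent.P241.H24.TwEX

/-!
# P241, existence of `K(n)`: the coaction step

From `co : A ⟶ A ⊗ Q` and `θ : C ⟶ (A ⊗ C) ⊗ R` to a coaction of `A ⊗ C` over `Q ⊗ R`,
`a ⊗ c ↦ co(a) θ(c)`.
-/

open CategoryTheory MonoidalCategory MonObj

set_option linter.unusedSectionVars false

universe v u

namespace Vale.Agent.P241.H24

open Vale.Agent.P251.M Vale.Agent.P251.S Vale.Agent.P251.X

variable {T : Type u} [Category.{v} T] [MonoidalCategory T] [SymmetricCategory T]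

section gen

variable {B : T} [MonObj B]

/-- `(f(x) h(z)) (g(y) k(w)) = (f(x) g(y)) (h(z) k(w))` if `g` and `h` commute -/
theorem tm_tm_swap {X Y Z W : T} (f : X ⟶ B) (g : Y ⟶ B) (h : Z ⟶ B) (k : W ⟶ B)
    (hc : (g ⊗ₘ h) ≫ μ[B] = (β_ Y Z).hom ≫ (h ⊗ₘ g) ≫ μ[B]) :
    tensorμ X Y Z W ≫ ((f ⊗ₘ h) ≫ μ[B] ⊗ₘ (g ⊗ₘ k) ≫ μ[B]) ≫ μ[B] =
      ((f ⊗ₘ g) ≫ μ[B] ⊗ₘ (h ⊗ₘ k) ≫ μ[B]) ≫ μ[B] := by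
  have h1 : (g ⊗ₘ (h ⊗ₘ k) ≫ μ[B]) ≫ μ[B] =
      ((α_ Y Z W).inv ≫ (β_ Y Z).hom ▷ W ≫ (α_ Z Y W).hom) ≫
        (h ⊗ₘ (g ⊗ₘ k) ≫ μ[B]) ≫ μ[B] := by
    rw [Category.assoc, Category.assoc, ← tm_assoc, ← tm_left, ← hc, tm_assoc,
      Iso.inv_hom_id_assoc]
  have h2 : ((f ⊗ₘ g) ≫ μ[B] ⊗ₘ (h ⊗ₘ k) ≫ μ[B]) ≫ μ[B] = (α_ X Y (Z ⊗ W)).hom ≫
      X ◁ ((α_ Y Z W).inv ≫ (β_ Y Z).hom ▷ W ≫ (α_ Z Y W).hom) ≫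
        (f ⊗ₘ (h ⊗ₘ (g ⊗ₘ k) ≫ μ[B]) ≫ μ[B]) ≫ μ[B] := by
    rw [tm_assoc, h1, tm_right]
  rw [h2, tm_assoc]
  unfold tensorμ
  simp only [MonoidalCategory.whiskerLeft_comp, Category.assoc, Iso.inv_hom_id_assoc]

/-- monoid maps and products -/
theorem tm_comp {B' : T} [MonObj B'] {X Y : T} (f : X ⟶ B) (g : Y ⟶ B) (p : B ⟶ B')
    [IsMonHom p] : ((f ⊗ₘ g) ≫ μ[B]) ≫ p = (f ≫ p ⊗ₘ g ≫ p) ≫ μ[B'] := by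
  rw [Category.assoc, IsMonHom.mul_hom, tensorHom_comp_tensorHom_assoc]

end gen

section mon

variable (E P : T) [MonObj E] [MonObj P]

/-- `p (e ⊗ p') = e ⊗ p p'` -/
theorem inrM_mul : inrM E P ▷ (E ⊗ P) ≫ μ[E ⊗ P] = ich P E P ≫ E ◁ μ[P] := by
  have h : ((λ_ P).inv ≫ (η[E] ⊗ₘ 𝟙 P)) ▷ (E ⊗ P) ≫ tensorμ E P E P ≫ (μ[E] ⊗ₘ μ[P]) =
      (λ_ P).inv ▷ (E ⊗ P) ≫ tensorμ (𝟙_ T) P E P ≫ ((λ_ E).hom ⊗ₘ μ[P]) := by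
    rw [comp_whiskerRight, Category.assoc, tensorμ_natural_left_assoc, tensorHom_comp_tensorHom,
      MonObj.one_mul, id_whiskerRight, Category.id_comp]
  rw [tensorHom_id] at h
  refine h.trans ?_
  unfold tensorμ ich
  monoidal

/-- `(e ⊗ p) p' = e ⊗ p p'` -/
theorem mul_inrM : (E ⊗ P) ◁ inrM E P ≫ μ[E ⊗ P] = (α_ E P P).hom ≫ E ◁ μ[P] := by
  have h : (E ⊗ P) ◁ ((λ_ P).inv ≫ (η[E] ⊗ₘ 𝟙 P)) ≫ tensorμ E P E P ≫ (μ[E] ⊗ₘ μ[P]) =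
      (E ⊗ P) ◁ (λ_ P).inv ≫ tensorμ E P (𝟙_ T) P ≫ ((ρ_ E).hom ⊗ₘ μ[P]) := by
    rw [MonoidalCategory.whiskerLeft_comp, Category.assoc, tensorμ_natural_right_assoc,
      tensorHom_comp_tensorHom, MonObj.mul_one, MonoidalCategory.whiskerLeft_id,
      Category.id_comp]
  rw [tensorHom_id] at h
  refine h.trans ?_
  unfold tensorμ
  rw [braiding_tensorUnit_right]
  monoidal

/-- `inrM` into a commutative factor is central -/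
theorem cen_inrM [IsCommMonObj P] : Cen (inrM E P) := by
  unfold Cen
  rw [inrM_mul, mul_inrM, BraidedCategory.braiding_tensor_right_hom]
  simp only [Category.assoc, Iso.inv_hom_id_assoc]
  rw [← MonoidalCategory.whiskerLeft_comp, IsCommMonObj.mul_comm]
  unfold ich
  simp only [Category.assoc]

end mon

section co

variable {A Q R C E : T} [MonObj A] [MonObj Q] [IsCommMonObj Q] [MonObj R] [IsCommMonObj R]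
  [MonObj E]

/-- The coaction `a ⊗ c ↦ co(a) θ(c)`. -/
def coE (inl : A ⟶ E) (co : A ⟶ A ⊗ Q) (θ : C ⟶ E ⊗ R) : A ⊗ C ⟶ E ⊗ (Q ⊗ R) :=
  (co ≫ (inl ⊗ₘ inlM Q R) ⊗ₘ θ ≫ E ◁ inrM Q R) ≫ μ[E ⊗ (Q ⊗ R)]

theorem coE_lin (inl : A ⟶ E) [IsMonHom inl] (io : Q ⟶ A) (act : R ⊗ C ⟶ C) (co : A ⟶ A ⊗ Q)
    (hco : io ▷ A ≫ μ[A] ≫ co = (inrM A Q ⊗ₘ co) ≫ μ[A ⊗ Q]) (θ : C ⟶ E ⊗ R)
    (hθ : act ≫ θ = (inrM E R ⊗ₘ θ) ≫ μ[E ⊗ R]) :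
    tensorμ Q R A C ≫ (io ▷ A ≫ μ[A] ⊗ₘ act) ≫ coE inl co θ =
      (inrM E (Q ⊗ R) ⊗ₘ coE inl co θ) ≫ μ[E ⊗ (Q ⊗ R)] := by
  have h1 : (io ▷ A ≫ μ[A]) ≫ co ≫ (inl ⊗ₘ inlM Q R) =
      (inlM Q R ≫ inrM E (Q ⊗ R) ⊗ₘ co ≫ (inl ⊗ₘ inlM Q R)) ≫ μ[E ⊗ (Q ⊗ R)] := by
    have h5 : inrM A Q ≫ (inl ⊗ₘ inlM Q R) = inlM Q R ≫ inrM E (Q ⊗ R) := by
      unfold inrM
      rw [Category.assoc, tensorHom_def, ← comp_whiskerRight_assoc, IsMonHom.one_hom,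
        leftUnitor_inv_naturality_assoc, whisker_exchange]
    rw [Category.assoc, reassoc_of% hco, IsMonHom.mul_hom, tensorHom_comp_tensorHom_assoc, h5]
  have h2 : act ≫ θ ≫ E ◁ inrM Q R =
      (inrM Q R ≫ inrM E (Q ⊗ R) ⊗ₘ θ ≫ E ◁ inrM Q R) ≫ μ[E ⊗ (Q ⊗ R)] := by
    have h5 : inrM E R ≫ E ◁ inrM Q R = inrM Q R ≫ inrM E (Q ⊗ R) := by
      unfold inrM
      rw [Category.assoc, leftUnitor_inv_naturality_assoc, whisker_exchange]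
    rw [reassoc_of% hθ, IsMonHom.mul_hom, tensorHom_comp_tensorHom_assoc, h5]
  have h3 : inrM E (Q ⊗ R) = (inlM Q R ≫ inrM E (Q ⊗ R) ⊗ₘ inrM Q R ≫ inrM E (Q ⊗ R)) ≫
      μ[E ⊗ (Q ⊗ R)] := by
    rw [← tm_comp, inlM_inrM_mul, Category.id_comp]
  have h4 := tm_tm_swap (inlM Q R ≫ inrM E (Q ⊗ R)) (inrM Q R ≫ inrM E (Q ⊗ R))
    (co ≫ (inl ⊗ₘ inlM Q R)) (θ ≫ E ◁ inrM Q R) (((cen_inrM E (Q ⊗ R)).comp_left _).swap _)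
  conv_rhs => rw [h3]
  unfold coE
  rw [tensorHom_comp_tensorHom_assoc, h1, h2, ← h4]

theorem coE_counit (inl : A ⟶ E) [IsMonHom inl] (inr : R ⟶ E) [IsMonHom inr] (hr : Cen inr)
    (io : Q ⟶ A) [IsMonHom io] (hio : Cen (io ≫ inl)) (co : A ⟶ A ⊗ Q)
    (hco : co ≫ A ◁ io ≫ μ[A] = 𝟙 A) (θ : C ⟶ E ⊗ R) (w : C ⟶ E)
    (hθ : θ ≫ E ◁ inr ≫ μ[E] = w) :
    coE inl co θ ≫ E ◁ ((io ≫ inl ⊗ₘ inr) ≫ μ[E]) ≫ μ[E] = (inl ⊗ₘ w) ≫ μ[E] := by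
  have hc : Cen ((io ≫ inl ⊗ₘ inr) ≫ μ[E]) := hio.mul hr
  have hm : IsMonHom ((io ≫ inl ⊗ₘ inr) ≫ μ[E]) :=
    isMonHom_tmul (io ≫ inl) inr (hr.swap _)
  have hl : inlM Q R ≫ (io ≫ inl ⊗ₘ inr) ≫ μ[E] = io ≫ inl := inlM_descM _ _
  have hrr : inrM Q R ≫ (io ≫ inl ⊗ₘ inr) ≫ μ[E] = inr := inrM_descM _ _
  generalize (io ≫ inl ⊗ₘ inr) ≫ μ[E] = u at *
  have hk : IsMonHom (E ◁ u ≫ μ[E]) := by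
    have h := isMonHom_tmul (𝟙 E) u (hc.swap _)
    rwa [id_tensorHom] at h
  unfold coE
  rw [tm_comp]
  have h1 : (co ≫ (inl ⊗ₘ inlM Q R)) ≫ E ◁ u ≫ μ[E] = inl := by
    have h2 : (inl ⊗ₘ inlM Q R) ≫ E ◁ u = A ◁ io ≫ (inl ⊗ₘ inl) := by
      rw [← id_tensorHom, ← id_tensorHom, tensorHom_comp_tensorHom, tensorHom_comp_tensorHom, hl,
        Category.comp_id, Category.id_comp]
    rw [Category.assoc, reassoc_of% h2, ← IsMonHom.mul_hom, reassoc_of% hco]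
  have h3 : (θ ≫ E ◁ inrM Q R) ≫ E ◁ u ≫ μ[E] = w := by
    rw [Category.assoc, ← MonoidalCategory.whiskerLeft_comp_assoc, hrr, hθ]
  rw [h1, h3]

end co

section tw

variable {A R C : T} [MonObj A] [MonObj R]

/-- `(i(x) ⊗ r) (a ⊗ c) = i(x) a ⊗ r c` -/
theorem TwProd.tmul_mulE (t : TwProd A R C) {Q : T} (i : Q ⟶ A) :
    (i ⊗ₘ t.q) ▷ (A ⊗ C) ≫ t.mulE = tensorμ Q R A C ≫ (i ▷ A ≫ μ[A] ⊗ₘ t.a) := by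
  have h1 : A ◁ FM.unit A C ≫ fact A C = 𝟙 _ := FM.bind_unit (R := A) C
  rw [mulE_eq, tensorμ_natural_left_assoc, tensorHom_comp_tensorHom_assoc, t.q_mt]
  have h2 : (i ▷ A ≫ μ[A] ⊗ₘ t.a ≫ FM.unit A C) =
      (i ▷ A ≫ μ[A] ⊗ₘ t.a) ≫ A ◁ FM.unit A C := by
    rw [← id_tensorHom, tensorHom_comp_tensorHom, Category.comp_id]
  rw [h2, Category.assoc, h1, Category.comp_id]

/-- The coaction step. -/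
theorem TwProd.exists_co (t : TwProd A R C) [IsCommMonObj R] {Q : T} [MonObj Q] [IsCommMonObj Q]
    (io : Q ⟶ A) [IsMonHom io] (cen : Cen io) (co : A ⟶ A ⊗ Q)
    (co_lin : io ▷ A ≫ μ[A] ≫ co = (inrM A Q ⊗ₘ co) ≫ μ[A ⊗ Q])
    (co_counit : co ≫ A ◁ io ≫ μ[A] = 𝟙 A) (θ : C ⟶ (A ⊗ C) ⊗ R) :
    letI := t.mon
    t.a ≫ θ = (inrM (A ⊗ C) R ⊗ₘ θ) ≫ μ[(A ⊗ C) ⊗ R] →
    θ ≫ (A ⊗ C) ◁ t.inrE ≫ t.mulE = FM.unit A C →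
    ∃ co' : A ⊗ C ⟶ (A ⊗ C) ⊗ (Q ⊗ R),
      (io ⊗ₘ t.q) ▷ (A ⊗ C) ≫ t.mulE ≫ co' =
        (inrM (A ⊗ C) (Q ⊗ R) ⊗ₘ co') ≫ μ[(A ⊗ C) ⊗ (Q ⊗ R)] ∧
      co' ≫ (A ⊗ C) ◁ (io ⊗ₘ t.q) ≫ t.mulE = 𝟙 (A ⊗ C) := by
  let _ := t.mon
  intro hθ hθc
  have := t.isMonHom_inlE
  have := t.isMonHom_inrE
  refine ⟨coE t.inlE co θ, ?_, ?_⟩
  · have h := coE_lin (E := A ⊗ C) t.inlE io t.a co co_lin θ hθ
    rw [← h, reassoc_of% (t.tmul_mulE io)]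
  · have h := coE_counit (E := A ⊗ C) t.inlE t.inrE t.cen_inrE io (t.cen_inlE cen) co co_counit θ
      (FM.unit A C) hθc
    rw [t.tmul_eq io]
    exact h.trans t.inlE_unit_mulE

end tw

end Vale.Agent.P241.H24

namespace Vale.Agent.P241.EX

open Vale.Agent.P251.M Vale.Agent.P251.S Vale.Agent.P251.X

variable {T : Type u} [Category.{v} T] [Preadditive T] [MonoidalCategory T]
  [MonoidalPreadditive T] [SymmetricCategory T]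

variable {A Q R C : T} [MonObj A] [MonObj Q] [IsCommMonObj Q] [MonObj R] [IsCommMonObj R]
  {act : R ⊗ C ⟶ C} {q : R ⟶ C}

/-- The coaction step. -/
theorem exists_co (h : TwProd A act q) (hq : R ◁ q ≫ act = μ[R] ≫ q) (io : Q ⟶ A)
    [IsMonHom io] (cen : (β_ Q A).hom ≫ A ◁ io ≫ μ[A] = io ▷ A ≫ μ[A]) (co : A ⟶ A ⊗ Q)
    (co_lin : io ▷ A ≫ μ[A] ≫ co = (inrM A Q ⊗ₘ co) ≫ μ[A ⊗ Q])
    (co_counit : co ≫ A ◁ io ≫ μ[A] = 𝟙 A) (θ : C ⟶ (A ⊗ C) ⊗ R) :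
    letI := h.mon hq
    act ≫ θ = (inrM (A ⊗ C) R ⊗ₘ θ) ≫ μ[(A ⊗ C) ⊗ R] →
    θ ≫ (A ⊗ C) ◁ inrE A q ≫ mulE A h.m = FM.unit A C →
    ∃ co' : A ⊗ C ⟶ (A ⊗ C) ⊗ (Q ⊗ R),
      (io ⊗ₘ q) ▷ (A ⊗ C) ≫ mulE A h.m ≫ co' =
        (inrM (A ⊗ C) (Q ⊗ R) ⊗ₘ co') ≫ μ[(A ⊗ C) ⊗ (Q ⊗ R)] ∧
      co' ≫ (A ⊗ C) ◁ (io ⊗ₘ q) ≫ mulE A h.m = 𝟙 (A ⊗ C) := by
  rw [TwProd.mon_eq, ← TwProd.mulE_toTw h hq]
  exact (h.toTw hq).exists_co io cen co co_lin co_counit θ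

end Vale.Agent.P241.EX
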