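import Vale.Agent.P241.EX.Avg
import Vale.Agent.P241.H24.CoStep

/-!
# P241, block EX: absence of derivations, the step
-/

open CategoryTheory MonoidalCategory MonObj

set_option linter.unusedSectionVars false

universe v u

namespace Vale.Agent.P241.H24

open Vale.Agent.P251.M Vale.Agent.P251.S Vale.Agent.P251.X Vale.Agent.P241.EX

variable {T : Type u} [Category.{v} T] [Preadditive T] [MonoidalCategory T]
  [MonoidalPreadditive T] [SymmetricCategory T]

/-- a derivation, restricted along a monoid map on which it vanishes on the left -/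
theorem der_comp {E M X V W : T} [MonObj E] {l : ModStr E M} {D : E ⊗ X ⟶ M} (hD : IsDer l D)
    {f : V ⟶ E} (hf : f ▷ X ≫ D = 0) (w : W ⟶ E) :
    (V ◁ w ≫ f ▷ E ≫ μ[E]) ▷ X ≫ D =
      (α_ V W X).hom ≫ V ◁ (w ▷ X ≫ D) ≫ f ▷ M ≫ l.act := by
  rw [comp_whiskerRight, Category.assoc, hD V f hf, associator_naturality_middle_assoc,
    MonoidalCategory.whiskerLeft_comp, Category.assoc]

variable {A R C Z S Q : T} [MonObj A] [MonObj R] [MonObj Q]

theorem inlM_tmul (io : Q ⟶ A) (q : R ⟶ C) : inlM Q R ≫ (io ⊗ₘ q) = io ≫ EX.inlE A q := by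
  unfold inlM EX.inlE
  rw [Category.assoc, tensorHom_def', ← MonoidalCategory.whiskerLeft_comp_assoc,
    whisker_exchange, rightUnitor_inv_naturality_assoc]

theorem inrM_tmul (io : Q ⟶ A) [IsMonHom io] (q : R ⟶ C) :
    inrM Q R ≫ (io ⊗ₘ q) = EX.inrE A q := by
  unfold inrM EX.inrE
  rw [Category.assoc, tensorHom_def, ← comp_whiskerRight_assoc, IsMonHom.one_hom,
    ← whisker_exchange]
  unfold FM.unit
  rw [leftUnitor_inv_naturality_assoc]

theorem noDer_step (d : CData A R C Z S) {W : T → Prop} (hW : W (Z ⊗ S)) {io : Q ⟶ A}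
    [IsMonHom io] (hN : NoDer W io) (h : EX.TwProd A d.act d.q) :
    letI := h.mon d.q_act
    NoDer W (io ⊗ₘ d.q) := by
  let _ := h.mon d.q_act
  intro M X l hv D hD h0
  have _ := h.isMonHom_inlE d.q_act
  have _ := h.isMonHom_whiskerLeft d.q_act
  -- on `A`
  have h1 : EX.inlE A d.q ▷ X ≫ D = 0 := by
    refine hN M X (l.restr (EX.inlE A d.q)) hv _ ?_ ?_
    · intro V f hf
      have h2 : (f ≫ EX.inlE A d.q) ▷ X ≫ D = 0 := by
        rw [comp_whiskerRight, Category.assoc, hf]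
      have h3 := der_comp hD h2 (EX.inlE A d.q)
      have h4 : V ◁ EX.inlE A d.q ≫ (f ≫ EX.inlE A d.q) ▷ (A ⊗ C) ≫ μ[A ⊗ C] =
          (f ▷ A ≫ μ[A]) ≫ EX.inlE A d.q := by
        rw [Category.assoc, IsMonHom.mul_hom, comp_whiskerRight, Category.assoc,
          whisker_exchange_assoc, tensorHom_def']
        simp only [Category.assoc]
      rw [h4, comp_whiskerRight, Category.assoc] at h3
      refine h3.trans ?_
      change _ = (α_ V A X).hom ≫ V ◁ (EX.inlE A d.q ▷ X ≫ D) ≫ f ▷ M ≫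
        EX.inlE A d.q ▷ M ≫ l.act
      rw [comp_whiskerRight, Category.assoc]
    · rw [← comp_whiskerRight_assoc, ← inlM_tmul, comp_whiskerRight, Category.assoc, h0,
        Limits.comp_zero]
  have h5 : EX.inrE A d.q ▷ X ≫ D = 0 := by
    rw [← inrM_tmul io, comp_whiskerRight, Category.assoc, h0, Limits.comp_zero]
  -- on `C`
  have h6 : FM.unit A C ▷ X ≫ D = 0 := by
    have h7 : d.Lin (l.restr (A ◁ d.q)) (FM.unit A C ▷ X ≫ D) := by
      have h3 := der_comp hD h5 (FM.unit A C)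
      have h8 : R ◁ FM.unit A C ≫ EX.inrE A d.q ▷ (A ⊗ C) ≫ μ[A ⊗ C] =
          d.act ≫ FM.unit A C := by
        change R ◁ FM.unit A C ≫ EX.inrE A d.q ▷ (A ⊗ C) ≫ EX.mulE A h.m = _
        rw [← EX.TwProd.mulE_toTw h d.q_act]
        exact ((h.toTw d.q_act).inrE_mulE ▸ rfl : _ = R ◁ FM.unit A C ≫
          (h.toTw d.q_act).actE).trans (h.toTw d.q_act).unit_actE
      rw [h8, comp_whiskerRight, Category.assoc] at h3
      refine h3.trans ?_
      change _ = (α_ R C X).hom ≫ R ◁ (FM.unit A C ▷ X ≫ D) ≫ inrM A R ▷ M ≫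
        (A ◁ d.q) ▷ M ≫ l.act
      rw [← comp_whiskerRight_assoc (inrM A R)]
      have h9 : inrM A R ≫ A ◁ d.q = EX.inrE A d.q := by
        rw [← inrM_tmul (𝟙 A) d.q, id_tensorHom]
      rw [h9]
    obtain ⟨g, hg⟩ := d.fac (l.restr (A ◁ d.q)) _ h7 (by
      rw [← comp_whiskerRight_assoc, Category.assoc]
      change (η[R] ≫ EX.inrE A d.q) ▷ X ≫ D = 0
      rw [comp_whiskerRight, Category.assoc, h5, Limits.comp_zero])
    rw [hg, hv _ hW g]
    unfold CData.ext
    rw [MonoidalPreadditive.whiskerLeft_zero, Limits.zero_comp, Limits.comp_zero,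
      Limits.comp_zero]
  -- conclusion
  have h10 := der_comp hD h1 (FM.unit A C)
  have h11 : A ◁ FM.unit A C ≫ EX.inlE A d.q ▷ (A ⊗ C) ≫ μ[A ⊗ C] = 𝟙 _ := by
    rw [← Category.assoc, ← tensorHom_def']
    exact h.inl_unit d.q_act
  rw [h11, h6, MonoidalPreadditive.whiskerLeft_zero, Limits.zero_comp, Limits.comp_zero,
    id_whiskerRight, Category.id_comp] at h10
  exact h10

end Vale.Agent.P241.H24
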