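import Vale.Agent.P251.M.BaseCh

/-!
# P241, existence of `K(n)`: central maps into a monoid
-/

open CategoryTheory MonoidalCategory MonObj

set_option linter.unusedSectionVars false

universe v u

namespace Vale.Agent.P241.H24

variable {T : Type u} [Category.{v} T] [MonoidalCategory T] [SymmetricCategory T]

/-- `f : X ⟶ E` is central: `e f(x) = f(x) e`. -/
def Cen {X E : T} [MonObj E] (f : X ⟶ E) : Prop :=
  (β_ X E).hom ≫ E ◁ f ≫ μ[E] = f ▷ E ≫ μ[E]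

variable {E : T} [MonObj E]

theorem Cen.comp_left {X Y : T} {f : X ⟶ E} (h : Cen f) (g : Y ⟶ X) : Cen (g ≫ f) := by
  unfold Cen at *
  rw [MonoidalCategory.whiskerLeft_comp, Category.assoc,
    ← BraidedCategory.braiding_naturality_left_assoc, h, comp_whiskerRight, Category.assoc]

theorem Cen.of_comm [IsCommMonObj E] {X : T} (f : X ⟶ E) : Cen f := by
  unfold Cen
  rw [← BraidedCategory.braiding_naturality_left_assoc, IsCommMonObj.mul_comm]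

/-- `f(x) g(y) = g(y) f(x)` if `f` is central -/
theorem Cen.swap {X Y : T} {f : X ⟶ E} (h : Cen f) (g : Y ⟶ E) :
    (f ⊗ₘ g) ≫ μ[E] = (β_ X Y).hom ≫ (g ⊗ₘ f) ≫ μ[E] := by
  have h1 : (f ⊗ₘ g) ≫ μ[E] = X ◁ g ≫ f ▷ E ≫ μ[E] := by
    rw [tensorHom_def', Category.assoc]
  rw [h1, ← h, BraidedCategory.braiding_naturality_right_assoc, tensorHom_def, Category.assoc]

/-- `f(x) (g(y) e)` -/
theorem tmul_mul {X Y : T} (f : X ⟶ E) (g : Y ⟶ E) : ((f ⊗ₘ g) ≫ μ[E]) ▷ E ≫ μ[E] =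
    (α_ X Y E).hom ≫ X ◁ (g ▷ E ≫ μ[E]) ≫ f ▷ E ≫ μ[E] := by
  rw [comp_whiskerRight, Category.assoc, MonObj.mul_assoc, tensorHom_def']
  simp only [comp_whiskerRight, Category.assoc, MonoidalCategory.whiskerLeft_comp,
    associator_naturality_left_assoc, associator_naturality_middle_assoc]
  rw [← whisker_exchange_assoc]

/-- `(e f(x)) g(y)` -/
theorem mul_tmul {X Y : T} (f : X ⟶ E) (g : Y ⟶ E) : E ◁ ((f ⊗ₘ g) ≫ μ[E]) ≫ μ[E] =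
    (α_ E X Y).inv ≫ (E ◁ f ≫ μ[E]) ▷ Y ≫ E ◁ g ≫ μ[E] := by
  have h3 : E ◁ μ[E] ≫ μ[E] = (α_ E E E).inv ≫ μ[E] ▷ E ≫ μ[E] := by
    rw [MonObj.mul_assoc, Iso.inv_hom_id_assoc]
  rw [MonoidalCategory.whiskerLeft_comp, Category.assoc, h3, tensorHom_def]
  simp only [comp_whiskerRight, Category.assoc, MonoidalCategory.whiskerLeft_comp]
  rw [associator_inv_naturality_right_assoc, whisker_exchange_assoc,
    associator_inv_naturality_middle_assoc]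

/-- `(f(x) e) g(y) = f(x) (e g(y))` -/
theorem mul_mul' {X Y : T} (f : X ⟶ E) (g : Y ⟶ E) : (f ▷ E ≫ μ[E]) ▷ Y ≫ E ◁ g ≫ μ[E] =
    (α_ X E Y).hom ≫ X ◁ (E ◁ g ≫ μ[E]) ≫ f ▷ E ≫ μ[E] := by
  rw [comp_whiskerRight, Category.assoc, ← whisker_exchange_assoc, MonObj.mul_assoc]
  simp only [MonoidalCategory.whiskerLeft_comp, Category.assoc]
  rw [associator_naturality_right_assoc, associator_naturality_left_assoc,
    ← whisker_exchange_assoc, whisker_exchange_assoc (f := f) (g := μ[E])]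

/-- products of central maps are central -/
theorem Cen.mul {X Y : T} {f : X ⟶ E} {g : Y ⟶ E} (hf : Cen f) (hg : Cen g) :
    Cen ((f ⊗ₘ g) ≫ μ[E]) := by
  unfold Cen at *
  rw [tmul_mul, mul_tmul, ← hg, BraidedCategory.braiding_tensor_left_hom]
  simp only [Category.assoc, Iso.hom_inv_id_assoc]
  rw [← comp_whiskerRight_assoc, hf, mul_mul', Iso.inv_hom_id_assoc,
    ← MonoidalCategory.whiskerLeft_comp_assoc]

/-- `(f(x) g(y)) h(z) = f(x) (g(y) h(z))` -/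
theorem tm_assoc {X Y Z : T} (f : X ⟶ E) (g : Y ⟶ E) (h : Z ⟶ E) :
    ((f ⊗ₘ g) ≫ μ[E] ⊗ₘ h) ≫ μ[E] = (α_ X Y Z).hom ≫ (f ⊗ₘ (g ⊗ₘ h) ≫ μ[E]) ≫ μ[E] := by
  have h1 : ((f ⊗ₘ g) ≫ μ[E] ⊗ₘ h) = ((f ⊗ₘ g) ⊗ₘ h) ≫ μ[E] ▷ E := by
    rw [← tensorHom_id, tensorHom_comp_tensorHom, Category.comp_id]
  have h2 : (f ⊗ₘ (g ⊗ₘ h) ≫ μ[E]) = (f ⊗ₘ (g ⊗ₘ h)) ≫ E ◁ μ[E] := by
    rw [← id_tensorHom, tensorHom_comp_tensorHom, Category.comp_id]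
  rw [h1, h2, Category.assoc, MonObj.mul_assoc, associator_naturality_assoc, Category.assoc]

theorem tm_left {X X' Y : T} (c : X' ⟶ X) (f : X ⟶ E) (g : Y ⟶ E) :
    (c ≫ f ⊗ₘ g) ≫ μ[E] = c ▷ Y ≫ (f ⊗ₘ g) ≫ μ[E] := by
  rw [← tensorHom_id, tensorHom_comp_tensorHom_assoc, Category.id_comp]

theorem tm_right {X Y Y' : T} (c : Y' ⟶ Y) (f : X ⟶ E) (g : Y ⟶ E) :
    (f ⊗ₘ c ≫ g) ≫ μ[E] = X ◁ c ≫ (f ⊗ₘ g) ≫ μ[E] := by
  rw [← id_tensorHom, tensorHom_comp_tensorHom_assoc, Category.id_comp]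

/-- the product of two commuting monoid morphisms is a monoid morphism -/
theorem isMonHom_tmul {X Y : T} [MonObj X] [MonObj Y] (f : X ⟶ E) (g : Y ⟶ E) [IsMonHom f]
    [IsMonHom g] (h : (g ⊗ₘ f) ≫ μ[E] = (β_ Y X).hom ≫ (f ⊗ₘ g) ≫ μ[E]) :
    IsMonHom ((f ⊗ₘ g) ≫ μ[E]) where
  one_hom := by
    change ((λ_ (𝟙_ T)).inv ≫ (η[X] ⊗ₘ η[Y])) ≫ (f ⊗ₘ g) ≫ μ[E] = η[E]
    rw [Category.assoc, tensorHom_comp_tensorHom_assoc, IsMonHom.one_hom, IsMonHom.one_hom,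
      MonObj.one_mul_hom, Iso.inv_hom_id_assoc]
  mul_hom := by
    change (tensorμ X Y X Y ≫ (μ[X] ⊗ₘ μ[Y])) ≫ (f ⊗ₘ g) ≫ μ[E] =
      ((f ⊗ₘ g) ≫ μ[E] ⊗ₘ (f ⊗ₘ g) ≫ μ[E]) ≫ μ[E]
    have h1 : (g ⊗ₘ (f ⊗ₘ g) ≫ μ[E]) ≫ μ[E] =
        ((α_ Y X Y).inv ≫ (β_ Y X).hom ▷ Y ≫ (α_ X Y Y).hom) ≫
          (f ⊗ₘ (g ⊗ₘ g) ≫ μ[E]) ≫ μ[E] := by
      rw [Category.assoc, Category.assoc, ← tm_assoc, ← tm_left, ← h, tm_assoc,
        Iso.inv_hom_id_assoc]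
    have h2 : ((f ⊗ₘ g) ≫ μ[E] ⊗ₘ (f ⊗ₘ g) ≫ μ[E]) ≫ μ[E] = (α_ X Y (X ⊗ Y)).hom ≫
        X ◁ ((α_ Y X Y).inv ≫ (β_ Y X).hom ▷ Y ≫ (α_ X Y Y).hom) ≫
          (f ⊗ₘ (f ⊗ₘ (g ⊗ₘ g) ≫ μ[E]) ≫ μ[E]) ≫ μ[E] := by
      rw [tm_assoc, h1, tm_right]
    rw [Category.assoc, tensorHom_comp_tensorHom_assoc, IsMonHom.mul_hom, IsMonHom.mul_hom,
      tm_assoc, h2]
    unfold tensorμ
    simp only [MonoidalCategory.whiskerLeft_comp, Category.assoc, Iso.inv_hom_id_assoc]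

end Vale.Agent.P241.H24
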