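import Vale.Agent.P241.EX.CDefs

/-!
# P241, block EX: from `StepD` to `CData`

`X.StepD A R Z C` (`A` an associative monoid) gives `CData A R C Z S¹`.
-/

open CategoryTheory MonoidalCategory Limits Pretriangulated MonObj

set_option linter.unusedSectionVars false

universe v u

namespace Vale.Agent.P241.EX

open Vale.Agent.P251.T Vale.Agent.P251.M Vale.Agent.P251.S Vale.Agent.P251.X

variable {T : Type u} [Category.{v} T] [Preadditive T] [HasZeroObject T] [HasShift T ℤ]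
  [∀ n : ℤ, (shiftFunctor T n).Additive] [Pretriangulated T]
  [MonoidalCategory T] [SymmetricCategory T] [TensorTriangulated T]
  {A R Z C : T} [MonObj A] [MonObj R]

/-- exactness, from the triangle -/
theorem homExact_v (v : Z ⟶ R) (q : R ⟶ C) (δ : C ⟶ (R ⊗ Z)⟦(1 : ℤ)⟧)
    (hT : Triangle.mk (R ◁ v ≫ μ[R]) q δ ∈ distTriang T) :
    HomExact (R ◁ v ≫ μ[R]) q (bdry δ)
      (R ◁ (v ▷ ((𝟙_ T)⟦(1 : ℤ)⟧)) ≫ (α_ R R ((𝟙_ T)⟦(1 : ℤ)⟧)).inv ≫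
        μ[R] ▷ ((𝟙_ T)⟦(1 : ℤ)⟧)) := by
  refine homExact_of_dist hT (Iso.refl _)
    ((α_ R Z ((𝟙_ T)⟦(1 : ℤ)⟧)).symm ≪≫ TensorTriangulated.e (R ⊗ Z))
    (TensorTriangulated.e R) (Category.id_comp _) ?_ ?_
  · unfold bdry
    simp only [Iso.trans_hom, Iso.symm_hom, Category.assoc, Iso.hom_inv_id_assoc,
      Iso.inv_hom_id, Category.comp_id]
  · simp only [Iso.trans_hom, Iso.symm_hom, Category.assoc]
    rw [← TensorTriangulated.e_naturality, comp_whiskerRight, Category.assoc,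
      associator_inv_naturality_middle_assoc]

variable (d : StepD A R Z C) [IsCommMonObj R]

theorem stepD_one : ((λ_ C).inv ≫ η[R] ▷ C ≫ d.a) ≫ FM.unit A C = FM.unit A C := by
  apply d.dist_ext d.V1
  simp only [Category.assoc]
  rw [leftUnitor_inv_naturality_assoc, whisker_exchange_assoc, d.q_a_assoc,
    ← Category.assoc (η[R] ▷ R), MonObj.one_mul, Iso.inv_hom_id_assoc]

theorem stepD_mul : (μ[R] ▷ C ≫ d.a) ≫ FM.unit A C =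
    ((α_ R R C).hom ≫ R ◁ d.a ≫ d.a) ≫ FM.unit A C := by
  have h1 : R ◁ d.a ≫ (inrM A R ⊗ₘ d.t) = (inrM A R ⊗ₘ (inrM A R ⊗ₘ d.t) ≫ fact (A ⊗ R) C) := by
    rw [← id_tensorHom, tensorHom_comp_tensorHom, Category.id_comp, d.a_t]
  have h2 : μ[R] ▷ C ≫ (inrM A R ⊗ₘ d.t) = ((inrM A R ⊗ₘ inrM A R) ≫ μ[A ⊗ R] ⊗ₘ d.t) := by
    rw [← tensorHom_id, tensorHom_comp_tensorHom, Category.id_comp, IsMonHom.mul_hom]
  simp only [Category.assoc]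
  rw [← d.t_r, d.a_t_assoc, reassoc_of% h1, reassoc_of% h2, reassoc_of% fact_assoc]

/-- **`CData` from `StepD`.** -/
noncomputable def _root_.Vale.Agent.P251.X.StepD.toC : CData A R C Z ((𝟙_ T)⟦(1 : ℤ)⟧) where
  v := d.v
  q := d.q
  act := d.a
  q_act := d.q_a
  one' := stepD_one d
  mul' := stepD_mul d
  δ := bdry d.δ
  δ_act := d.a_bdry
  exact := homExact_v d.v d.q d.δ d.dist
  t := d.t
  t_lin := d.a_t
  t_act := d.t_r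
  q_t := d.q_t
  t_δ := d.t_bdry
  inv := d.inv

/-- `v` acts as zero -/
theorem stepD_vC (hz : ∀ f : (Z ⊗ (R ⊗ Z))⟦(1 : ℤ)⟧ ⟶ A ⊗ C, f = 0) :
    (d.v ▷ C ≫ d.a) ≫ FM.unit A C = 0 := by
  have h0 : (R ◁ d.v ≫ μ[R]) ≫ d.q = 0 := comp_distTriang_mor_zero₁₂ _ d.dist
  have h1 : Z ◁ d.q ≫ (d.v ▷ C ≫ d.a) ≫ FM.unit A C = 0 := by
    rw [Category.assoc, whisker_exchange_assoc, d.q_a_assoc]
    have h2 : d.v ▷ R ≫ μ[R] = (β_ Z R).hom ≫ R ◁ d.v ≫ μ[R] := by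
      rw [← BraidedCategory.braiding_naturality_left_assoc, IsCommMonObj.mul_comm]
    have h3 : R ◁ d.v ≫ μ[R] ≫ d.q ≫ FM.unit A C = 0 := by
      rw [← Category.assoc μ[R], ← Category.assoc, ← Category.assoc (R ◁ d.v), h0, zero_comp]
    rw [reassoc_of% h2, h3, comp_zero]
  obtain ⟨b, hb⟩ := yex3 (tens_dist Z d.dist) _ h1
  exact hb.trans (by rw [hz b, comp_zero])

theorem stepD_van (hz : ∀ f : (Z ⊗ (R ⊗ Z))⟦(1 : ℤ)⟧ ⟶ A ⊗ C, f = 0) {W : T → Prop}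
    (hW : W (Z ⊗ (𝟙_ T)⟦(1 : ℤ)⟧)) (h1 : ∀ f : Z ⊗ (𝟙_ T)⟦(1 : ℤ)⟧ ⟶ A ⊗ C, f = 0)
    (h3 : ∀ X, W X → ∀ f : X ⊗ ((Z ⊗ (𝟙_ T)⟦(1 : ℤ)⟧) ⊗ (Z ⊗ (𝟙_ T)⟦(1 : ℤ)⟧)) ⟶ A ⊗ C, f = 0) :
    d.toC.Van W where
  vC' := stepD_vC d hz
  hW := hW
  h1 := h1
  h3 := h3

end Vale.Agent.P241.EX
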