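import Vale.Agent.P241.H24.OfStepD
import Vale.Agent.P241.H24.CoStep

/-!
# P241, block EX: the coaction of `A ⊗ C` from `StepD`

`θ : C ⟶ (A ⊗ C) ⊗ R` with `q r ↦ 1 ⊗ r`, and the coaction `a ⊗ c ↦ co(a) θ(c)`.
-/

open CategoryTheory MonoidalCategory Limits Pretriangulated MonObj

set_option linter.unusedSectionVars false

universe v u

namespace Vale.Agent.P241.EX

open Vale.Agent.P251.T Vale.Agent.P251.M Vale.Agent.P251.S Vale.Agent.P251.X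

variable {T : Type u} [Category.{v} T] [Preadditive T] [HasZeroObject T] [HasShift T ℤ]
  [∀ n : ℤ, (shiftFunctor T n).Additive] [Pretriangulated T]
  [MonoidalCategory T] [SymmetricCategory T] [TensorTriangulated T]
  {A R Z C : T} [MonObj A] [MonObj R]

/-- `(a ⊗ c) ⊗ r ↦ (a ⊗ r) ⊗ c` -/
def swIso (A C R : T) : (A ⊗ C) ⊗ R ≅ (A ⊗ R) ⊗ C :=
  α_ A C R ≪≫ whiskerLeftIso A (β_ C R) ≪≫ (α_ A R C).symm

variable (d : StepD A R Z C) [IsCommMonObj R]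

theorem stepD_v_q : d.v ≫ d.q = 0 := by
  have h0 : (R ◁ d.v ≫ μ[R]) ≫ d.q = 0 := comp_distTriang_mor_zero₁₂ _ d.dist
  have h1 : d.v = (λ_ Z).inv ≫ η[R] ▷ Z ≫ R ◁ d.v ≫ μ[R] := by
    rw [← whisker_exchange_assoc, MonObj.one_mul]
    simp
  rw [h1]
  simp only [Category.assoc] at h0 ⊢
  rw [h0, comp_zero, comp_zero]

/-- `1 ⊗ v = 0` in `(A ⊗ C) ⊗ R` -/
theorem stepD_v_inrM (h : TwProd A d.a d.q) : letI := h.mon d.q_a;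
    d.v ≫ inrM (A ⊗ C) R = 0 := by
  let _ := h.mon d.q_a
  have hm : IsMonHom (A ◁ d.q) := h.isMonHom_whiskerLeft d.q_a
  have h1 := congrArg (fun f => f ≫ (A ◁ d.q) ▷ R) d.inv
  simp only [Category.assoc] at h1
  rw [inrM_whiskerRight, inlM_whiskerRight] at h1
  have h2 : inrM A R ≫ A ◁ d.q = d.q ≫ FM.unit A C := by
    rw [FM.unit_naturality, inrM_eq_unit]
  rw [← h1, reassoc_of% h2, reassoc_of% (stepD_v_q d), zero_comp]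

theorem stepD_exists_theta (h : TwProd A d.a d.q) : letI := h.mon d.q_a;
    ∃ θ : C ⟶ (A ⊗ C) ⊗ R, d.q ≫ θ = inrM (A ⊗ C) R := by
  let _ := h.mon d.q_a
  have h1 : (R ◁ d.v ≫ μ[R]) ≫ inrM (A ⊗ C) R = 0 := by
    rw [Category.assoc, IsMonHom.mul_hom, tensorHom_def', ← Category.assoc (R ◁ d.v),
      ← Category.assoc (R ◁ d.v), ← MonoidalCategory.whiskerLeft_comp, stepD_v_inrM,
      MonoidalPreadditive.whiskerLeft_zero, zero_comp, zero_comp]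
  obtain ⟨θ, hθ⟩ := yex2 d.dist _ h1
  exact ⟨θ, hθ.symm⟩

include d in
theorem stepD_V2' (f : (R ⊗ (R ⊗ Z))⟦(1 : ℤ)⟧ ⟶ (A ⊗ C) ⊗ R) : f = 0 := by
  rw [← cancel_mono (swIso A C R).hom, d.V2 (f ≫ (swIso A C R).hom), zero_comp]

/-- **The coaction step.** -/
theorem stepD_exists_co (h : TwProd A d.a d.q) {Q : T} [MonObj Q] [IsCommMonObj Q] (io : Q ⟶ A)
    [IsMonHom io] (cen : (β_ Q A).hom ≫ A ◁ io ≫ μ[A] = io ▷ A ≫ μ[A]) (co : A ⟶ A ⊗ Q)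
    (co_lin : io ▷ A ≫ μ[A] ≫ co = (inrM A Q ⊗ₘ co) ≫ μ[A ⊗ Q])
    (co_counit : co ≫ A ◁ io ≫ μ[A] = 𝟙 A) :
    letI := h.mon d.q_a
    ∃ co' : A ⊗ C ⟶ (A ⊗ C) ⊗ (Q ⊗ R),
      (io ⊗ₘ d.q) ▷ (A ⊗ C) ≫ mulE A h.m ≫ co' =
        (inrM (A ⊗ C) (Q ⊗ R) ⊗ₘ co') ≫ μ[(A ⊗ C) ⊗ (Q ⊗ R)] ∧
      co' ≫ (A ⊗ C) ◁ (io ⊗ₘ d.q) ≫ mulE A h.m = 𝟙 (A ⊗ C) := by
  let _ := h.mon d.q_a
  obtain ⟨θ, hθ⟩ := stepD_exists_theta d h
  refine exists_co h d.q_a io cen co co_lin co_counit θ ?_ ?_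
  · apply d.dist_ext₂ (stepD_V2' d)
    have h1 : R ◁ d.q ≫ (inrM (A ⊗ C) R ⊗ₘ θ) =
        (inrM (A ⊗ C) R ⊗ₘ inrM (A ⊗ C) R) := by
      rw [← id_tensorHom, tensorHom_comp_tensorHom, Category.id_comp, hθ]
    rw [d.q_a_assoc, hθ, reassoc_of% h1, IsMonHom.mul_hom]
  · apply d.dist_ext d.V1
    have h1 : inrM (A ⊗ C) R ≫ (A ⊗ C) ◁ inrE A d.q ≫ mulE A h.m = inrE A d.q := by
      have h2 : η[A ⊗ C] ▷ (A ⊗ C) ≫ μ[A ⊗ C] = (λ_ (A ⊗ C)).hom := MonObj.one_mul _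
      unfold inrM
      rw [Category.assoc, ← whisker_exchange_assoc]
      change (λ_ R).inv ≫ 𝟙_ T ◁ inrE A d.q ≫ η[A ⊗ C] ▷ (A ⊗ C) ≫ μ[A ⊗ C] = _
      rw [h2]
      simp
    rw [reassoc_of% hθ, h1]
    rfl

end Vale.Agent.P241.EX
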