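import Vale.Agent.P251.X.RetMod
import Vale.Agent.P251.M.Kleisli

/-!
# P241, existence of `K(n)`: twisted products, definition

`A` an associative monoid, `R` a commutative monoid, `C` an `R`-module with `q : R ⟶ C`.
`TwProd A R C` is a product `mt : C ⊗ C ⟶ A ⊗ C` which makes `A ⊗ C` a monoid by
`(a c) (a' c') = a a' mt(c, c')`.
-/

open CategoryTheory MonoidalCategory MonObj

universe v u

namespace Vale.Agent.P241.H24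

open Vale.Agent.P251.M Vale.Agent.P251.S Vale.Agent.P251.X

variable {T : Type u} [Category.{v} T] [MonoidalCategory T] [SymmetricCategory T]

/-- the interchange `X ⊗ (Y ⊗ Z) ⟶ Y ⊗ (X ⊗ Z)` -/
def ich (X Y Z : T) : X ⊗ (Y ⊗ Z) ⟶ Y ⊗ (X ⊗ Z) :=
  (α_ X Y Z).inv ≫ (β_ X Y).hom ▷ Z ≫ (α_ Y X Z).hom

/-- the right action of `A` on `A ⊗ C`: `(a c) a' = (a a') c` -/
def rmul (A C : T) [MonObj A] : (A ⊗ C) ⊗ A ⟶ A ⊗ C :=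
  (α_ A C A).hom ≫ A ◁ (β_ C A).hom ≫ (α_ A A C).inv ≫ μ[A] ▷ C

/-- A twisted product on `A ⊗ C`. -/
structure TwProd (A R C : T) [MonObj A] [MonObj R] where
  /-- the action of `R` on `C` -/
  a : R ⊗ C ⟶ C
  /-- the projection `R ⟶ C` -/
  q : R ⟶ C
  q_a : R ◁ q ≫ a = μ[R] ≫ q
  /-- the product -/
  mt : C ⊗ C ⟶ A ⊗ C
  /-- `mt(1, c) = 1 ⊗ c` -/
  one_mt : (η[R] ≫ q) ▷ C ≫ mt = (λ_ C).hom ≫ FM.unit A C
  /-- `mt(c, 1) = 1 ⊗ c` -/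
  mt_one : C ◁ (η[R] ≫ q) ≫ mt = (ρ_ C).hom ≫ FM.unit A C
  /-- `mt(r c, c') = r mt(c, c')` -/
  lin₁ : (α_ R C C).inv ≫ a ▷ C ≫ mt = R ◁ mt ≫ ich R A C ≫ A ◁ a
  /-- `mt(c, r c') = r mt(c, c')` -/
  lin₂ : ich R C C ≫ C ◁ a ≫ mt = R ◁ mt ≫ ich R A C ≫ A ◁ a
  /-- `b mt(c, c') = mt(c, c') b` -/
  central : (β_ (C ⊗ C) A).hom ≫ A ◁ mt ≫ fact A C = mt ▷ A ≫ rmul A C
  /-- `x mt(c', c'') = y mt(c, c''')` for `mt(c, c') = x ⊗ c''`, and so on -/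
  assoc : mt ▷ C ≫ (α_ A C C).hom ≫ A ◁ mt ≫ fact A C =
    (α_ C C C).hom ≫ C ◁ mt ≫ ich C A C ≫ A ◁ mt ≫ fact A C

end Vale.Agent.P241.H24
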