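import Vale.Agent.P241.H24.Tw
import Vale.Agent.P241.H24.Cen

/-!
# P241, existence of `K(n)`: the monoid `A ⊗ C` of a twisted product, maps from `A`, `R`, `Q ⊗ R`
-/

open CategoryTheory MonoidalCategory MonObj

set_option linter.unusedSectionVars false

universe v u

namespace Vale.Agent.P241.H24

open Vale.Agent.P251.M Vale.Agent.P251.S Vale.Agent.P251.X

variable {T : Type u} [Category.{v} T] [MonoidalCategory T] [SymmetricCategory T]

variable {A R C : T} [MonObj A] [MonObj R]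

theorem ich_ich (X Y Z : T) : ich X Y Z ≫ ich Y X Z = 𝟙 _ := by
  unfold ich
  simp only [Category.assoc, Iso.hom_inv_id_assoc]
  rw [← comp_whiskerRight_assoc, SymmetricCategory.symmetry, id_whiskerRight,
    Category.id_comp, Iso.inv_hom_id]

/-- two forms of the unit of `A ⊗ C` -/
theorem one_eq (j : 𝟙_ T ⟶ C) : η[A] ≫ (ρ_ A).inv ≫ A ◁ j = (λ_ (𝟙_ T)).inv ≫ (η[A] ⊗ₘ j) := by
  rw [rightUnitor_inv_naturality_assoc, tensorHom_def, unitors_inv_equal]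

theorem one_unit (j : 𝟙_ T ⟶ C) : j ≫ FM.unit A C = (λ_ (𝟙_ T)).inv ≫ (η[A] ⊗ₘ j) := by
  unfold FM.unit
  rw [leftUnitor_inv_naturality_assoc, tensorHom_def']

/-- the braiding of `Q` and `A ⊗ C` -/
theorem braiding_sw (Q : T) : (β_ Q (A ⊗ C)).hom ≫ sw A C Q =
    (α_ Q A C).inv ≫ (β_ Q A).hom ▷ C := by
  unfold sw
  rw [BraidedCategory.braiding_tensor_right_hom]
  simp only [Category.assoc, Iso.inv_hom_id_assoc]
  rw [← MonoidalCategory.whiskerLeft_comp_assoc, SymmetricCategory.symmetry,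
    MonoidalCategory.whiskerLeft_id, Category.id_comp, Iso.hom_inv_id, Category.comp_id]

namespace TwProd

variable (t : TwProd A R C)

theorem oneE_eq' : t.oneE = (λ_ (𝟙_ T)).inv ≫ (η[A] ⊗ₘ (η[R] ≫ t.q)) := one_eq _

theorem isMonHom_inrE : letI := t.mon; IsMonHom t.inrE := by
  let _ := t.mon
  refine ⟨?_, ?_⟩
  · change η[R] ≫ t.q ≫ FM.unit A C = t.oneE
    rw [oneE_eq', ← Category.assoc, one_unit]
  · change μ[R] ≫ t.inrE = (t.inrE ⊗ₘ t.inrE) ≫ t.mulE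
    rw [tensorHom_def', Category.assoc, inrE_mulE]
    unfold inrE
    rw [MonoidalCategory.whiskerLeft_comp, Category.assoc, unit_actE, reassoc_of% t.q_a]

theorem cen_inrE : letI := t.mon; Cen t.inrE := by
  let _ := t.mon
  change (β_ R (A ⊗ C)).hom ≫ (A ⊗ C) ◁ t.inrE ≫ t.mulE = t.inrE ▷ (A ⊗ C) ≫ t.mulE
  rw [mulE_inrE, inrE_mulE, SymmetricCategory.symmetry_assoc]

theorem cen_inlE {Q : T} {i : Q ⟶ A} (h : Cen i) : letI := t.mon; Cen (i ≫ t.inlE) := by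
  let _ := t.mon
  change (β_ Q (A ⊗ C)).hom ≫ (A ⊗ C) ◁ (i ≫ t.inlE) ≫ t.mulE =
    (i ≫ t.inlE) ▷ (A ⊗ C) ≫ t.mulE
  rw [MonoidalCategory.whiskerLeft_comp, Category.assoc, right_mul, comp_whiskerRight,
    Category.assoc, left_mul, rmul_eq, sw_right_assoc, reassoc_of% (braiding_sw (C := C) Q),
    ← comp_whiskerRight, ← comp_whiskerRight, h]
  unfold fact
  rw [comp_whiskerRight, associator_inv_naturality_left_assoc]

/-- `i(x) ⊗ r` is a product -/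
theorem tmul_eq {Q : T} (i : Q ⟶ A) : (i ⊗ₘ t.q) = (i ≫ t.inlE ⊗ₘ t.inrE) ≫ t.mulE := by
  have h1 : (i ≫ t.inlE ⊗ₘ t.inrE) = (i ⊗ₘ t.q) ≫ (t.inlE ⊗ₘ FM.unit A C) := by
    rw [tensorHom_comp_tensorHom]
    rfl
  rw [h1, Category.assoc, inlE_unit_mulE, Category.comp_id]

theorem isMonHom_tmul {Q : T} [MonObj Q] (i : Q ⟶ A) [IsMonHom i] :
    letI := t.mon; IsMonHom (i ⊗ₘ t.q) := by
  let _ := t.mon
  have := t.isMonHom_inlE
  have := t.isMonHom_inrE
  rw [tmul_eq]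
  exact H24.isMonHom_tmul (E := A ⊗ C) (i ≫ t.inlE) t.inrE (t.cen_inrE.swap _)

/-- the map `a ⊗ r ↦ a ⊗ q r` is a monoid map -/
theorem isMonHom_whiskerLeft : letI := t.mon; IsMonHom (A ◁ t.q) := by
  let _ := t.mon
  rw [← id_tensorHom]
  exact t.isMonHom_tmul (𝟙 A)

theorem cen_tmul {Q : T} {i : Q ⟶ A} (h : Cen i) : letI := t.mon; Cen (i ⊗ₘ t.q) := by
  let _ := t.mon
  rw [tmul_eq]
  exact (t.cen_inlE h).mul t.cen_inrE

end TwProd

end Vale.Agent.P241.H24
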