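import Vale.Agent.P241.EX.CDefs
import Vale.Agent.P241.H24.TwOut

/-!
# P241, block EX: the monoid `A ⊗ C` of a twisted product, in the notation of `EX/CDefs.lean`

`h : TwProd A act q`, `hq : R ◁ q ≫ act = μ[R] ≫ q`.

* `TwProd.mon h : MonObj (A ⊗ C)`, unit `oneE A q`, product `mulE A h.m`;
* `inlE A q : A ⟶ A ⊗ C`, `inrE A q : R ⟶ A ⊗ C`, the four products with them;
* `isMonHom_inlE`, `isMonHom_inrE`, `isMonHom_whiskerLeft : IsMonHom (A ◁ q)`,
  `isMonHom_tmul : IsMonHom (ι ⊗ₘ q)`, `central_tmul : ι ⊗ₘ q` is central if `ι` is.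
-/

open CategoryTheory MonoidalCategory MonObj

set_option linter.unusedSectionVars false

universe v u

namespace Vale.Agent.P241.EX

open Vale.Agent.P251.M Vale.Agent.P251.S Vale.Agent.P251.X

variable {T : Type u} [Category.{v} T] [Preadditive T] [MonoidalCategory T]
  [MonoidalPreadditive T] [SymmetricCategory T]

/-- the inclusion of `A` in `A ⊗ C` -/
def inlE (A : T) {R C : T} [MonObj R] (q : R ⟶ C) : A ⟶ A ⊗ C := (ρ_ A).inv ≫ A ◁ (η[R] ≫ q)

/-- the map `R ⟶ A ⊗ C` -/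
def inrE (A : T) {R C : T} [MonObj A] (q : R ⟶ C) : R ⟶ A ⊗ C := q ≫ FM.unit A C

variable {A R C : T} [MonObj A] [MonObj R] {act : R ⊗ C ⟶ C} {q : R ⟶ C}

namespace TwProd

/-- The twisted product in the form of `H24/TwDef.lean`. -/
def toTw (h : TwProd A act q) (hq : R ◁ q ≫ act = μ[R] ≫ q) : H24.TwProd A R C where
  a := act
  q := q
  q_a := hq
  mt := h.m
  one_mt := h.one_mul
  mt_one := h.mul_one
  lin₁ := by
    rw [h.lin, Iso.inv_hom_id_assoc]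
    unfold actR H24.ich
    simp only [Category.assoc]
  lin₂ := by
    have h1 : C ◁ act ≫ h.m = H24.ich C R C ≫ R ◁ h.m ≫ actR A act := by
      rw [h.lin']
      unfold H24.ich
      simp only [Category.assoc]
    rw [h1, reassoc_of% (H24.ich_ich R C C)]
    unfold actR H24.ich
    simp only [Category.assoc]
  central := by
    rw [h.cen, SymmetricCategory.symmetry_assoc]
    rfl
  assoc := by
    rw [h.assoc]
    unfold H24.ich
    simp only [Category.assoc]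

variable (h : TwProd A act q) (hq : R ◁ q ≫ act = μ[R] ≫ q)

theorem oneE_toTw : (h.toTw hq).oneE = oneE A q := H24.TwProd.oneE_eq' _

theorem mulE_toTw : (h.toTw hq).mulE = mulE A h.m := H24.TwProd.mulE_eq _

/-- The monoid structure on `A ⊗ C`. -/
@[reducible]
def mon (h : TwProd A act q) (hq : R ◁ q ≫ act = μ[R] ≫ q) : MonObj (A ⊗ C) where
  one := oneE A q
  mul := mulE A h.m
  one_mul := by
    rw [← oneE_toTw h hq, ← mulE_toTw h hq]
    exact (h.toTw hq).mon.one_mul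
  mul_one := by
    rw [← oneE_toTw h hq, ← mulE_toTw h hq]
    exact (h.toTw hq).mon.mul_one
  mul_assoc := by
    rw [← mulE_toTw h hq]
    exact (h.toTw hq).mon.mul_assoc

theorem mon_eq : h.mon hq = (h.toTw hq).mon := by
  ext
  exact (mulE_toTw h hq).symm

include hq in
/-- `(a ⊗ 1) e = a e` -/
theorem inl_mul : inlE A q ▷ (A ⊗ C) ≫ mulE A h.m = fact A C := by
  rw [← mulE_toTw h hq]
  exact (h.toTw hq).left_mul

include hq in
/-- `e (a ⊗ 1) = e a` -/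
theorem mul_inl : (A ⊗ C) ◁ inlE A q ≫ mulE A h.m = actr A C := by
  rw [← mulE_toTw h hq]
  exact (h.toTw hq).right_mul

include hq in
/-- `(1 ⊗ q r) e = r e` -/
theorem inr_mul : inrE A q ▷ (A ⊗ C) ≫ mulE A h.m = actR A act := by
  rw [← mulE_toTw h hq]
  refine (h.toTw hq).inrE_mulE.trans ?_
  unfold H24.TwProd.actE H24.ich actR
  simp only [Category.assoc]
  rfl

include hq in
/-- `e (1 ⊗ q r) = r e` -/
theorem mul_inr : (A ⊗ C) ◁ inrE A q ≫ mulE A h.m = (β_ (A ⊗ C) R).hom ≫ actR A act := by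
  rw [← mulE_toTw h hq]
  refine (h.toTw hq).mulE_inrE.trans ?_
  unfold H24.TwProd.actE H24.ich actR
  simp only [Category.assoc]
  rfl

include hq in
/-- `(a ⊗ 1) (1 ⊗ c) = a ⊗ c` -/
theorem inl_unit : (inlE A q ⊗ₘ FM.unit A C) ≫ mulE A h.m = 𝟙 _ := by
  rw [← mulE_toTw h hq]
  exact (h.toTw hq).inlE_unit_mulE

include hq in
/-- `(a ⊗ c) (1 ⊗ c') = a mt(c, c')` -/
theorem mul_unit : (A ⊗ C) ◁ FM.unit A C ≫ mulE A h.m =
    (α_ A C C).hom ≫ A ◁ h.m ≫ fact A C := by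
  rw [← mulE_toTw h hq]
  exact (h.toTw hq).unit_mulE

theorem isMonHom_inlE : letI := h.mon hq; IsMonHom (inlE A q) := by
  rw [mon_eq]
  exact (h.toTw hq).isMonHom_inlE

theorem isMonHom_inrE : letI := h.mon hq; IsMonHom (inrE A q) := by
  rw [mon_eq]
  exact (h.toTw hq).isMonHom_inrE

theorem isMonHom_whiskerLeft : letI := h.mon hq; IsMonHom (A ◁ q) := by
  rw [mon_eq]
  exact (h.toTw hq).isMonHom_whiskerLeft

theorem isMonHom_tmul {Q : T} [MonObj Q] (i : Q ⟶ A) [IsMonHom i] :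
    letI := h.mon hq; IsMonHom (i ⊗ₘ q) := by
  rw [mon_eq]
  exact (h.toTw hq).isMonHom_tmul i

include hq in
/-- `ι ⊗ q` is central if `ι` is. -/
theorem central_tmul {Q : T} {i : Q ⟶ A} (hi : (β_ Q A).hom ≫ A ◁ i ≫ μ[A] = i ▷ A ≫ μ[A]) :
    (β_ (Q ⊗ R) (A ⊗ C)).hom ≫ (A ⊗ C) ◁ (i ⊗ₘ q) ≫ mulE A h.m =
      (i ⊗ₘ q) ▷ (A ⊗ C) ≫ mulE A h.m := by
  rw [← mulE_toTw h hq]
  exact (h.toTw hq).cen_tmul hi

include hq in
/-- `ι ⊗ 1` is central if `ι` is. -/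
theorem central_inl {Q : T} {i : Q ⟶ A} (hi : (β_ Q A).hom ≫ A ◁ i ≫ μ[A] = i ▷ A ≫ μ[A]) :
    (β_ Q (A ⊗ C)).hom ≫ (A ⊗ C) ◁ (i ≫ inlE A q) ≫ mulE A h.m =
      (i ≫ inlE A q) ▷ (A ⊗ C) ≫ mulE A h.m := by
  rw [← mulE_toTw h hq]
  exact (h.toTw hq).cen_inlE hi

include hq in
theorem central_inr : (β_ R (A ⊗ C)).hom ≫ (A ⊗ C) ◁ inrE A q ≫ mulE A h.m =
      inrE A q ▷ (A ⊗ C) ≫ mulE A h.m := by
  rw [← mulE_toTw h hq]
  exact (h.toTw hq).cen_inrE

end TwProd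

end Vale.Agent.P241.EX
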